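import Vale.Agent.P181.H59.Spec

/-!
# P181, [S5-STR]: circulant star systems exist
-/

set_option autoImplicit false

namespace Vale.Agent.P181.H188

open Finset Vale.Agent.P181.H59

/-- the letters: base letters `(y, i)` and `r` extra letters. -/
abbrev Lt (n h r : ℕ) : Type := (Fin n × Fin h) ⊕ Fin r

/-- membership in the star `L_y`. -/
def mL {n h r : ℕ} (p : Lt n h r) (y : ℕ) : Prop :=
  match p with
  | Sum.inl a => (a.1 : ℕ) = y
  | Sum.inr e => ((e : ℕ) = 0 ∧ y = 0) ∨ ((e : ℕ) = 1 ∧ y = 1) ∨ ((e : ℕ) = 2 ∧ y = 1)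

/-- membership in the star `M_z`. -/
def mM {n h r : ℕ} (p : Lt n h r) (z : ℕ) : Prop :=
  match p with
  | Sum.inl a => (a.1 : ℕ) + a.2 = z ∨ (a.1 : ℕ) + a.2 = z + n
  | Sum.inr e => ((e : ℕ) = 2 ∧ z = 3 * h) ∨ (e : ℕ) = z + 3

open Classical in
/-- the stars. -/
noncomputable def star (n h r : ℕ) : Fin n ⊕ Fin n → Finset (Lt n h r)
  | Sum.inl y => univ.filter fun p => mL p y
  | Sum.inr z => univ.filter fun p => mM p z

section
variable {n h r : ℕ}

theorem mem_L (y : Fin n) (p : Lt n h r) : p ∈ star n h r (Sum.inl y) ↔ mL p y := by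
  simp [star]

theorem mem_M (z : Fin n) (p : Lt n h r) : p ∈ star n h r (Sum.inr z) ↔ mM p z := by
  simp [star]

theorem mL_inl (a : Fin n) (i : Fin h) (y : ℕ) :
    mL (Sum.inl (a, i) : Lt n h r) y ↔ (a : ℕ) = y := Iff.rfl

theorem mL_inr (e : Fin r) (y : ℕ) :
    mL (Sum.inr e : Lt n h r) y ↔
      ((e : ℕ) = 0 ∧ y = 0) ∨ ((e : ℕ) = 1 ∧ y = 1) ∨ ((e : ℕ) = 2 ∧ y = 1) := Iff.rfl

theorem mM_inl (a : Fin n) (i : Fin h) (z : ℕ) :
    mM (Sum.inl (a, i) : Lt n h r) z ↔ (a : ℕ) + i = z ∨ (a : ℕ) + i = z + n := Iff.rfl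

theorem mM_inr (e : Fin r) (z : ℕ) :
    mM (Sum.inr e : Lt n h r) z ↔ ((e : ℕ) = 2 ∧ z = 3 * h) ∨ (e : ℕ) = z + 3 := Iff.rfl

/-- disjointness of the `L`-stars. -/
theorem L_uniq (p : Lt n h r) {y y' : ℕ} (h1 : mL p y) (h2 : mL p y') : y = y' := by
  rcases p with ⟨a, i⟩ | e
  · rw [mL_inl] at h1 h2; omega
  · rw [mL_inr] at h1 h2; omega

/-- disjointness of the `M`-stars. -/
theorem M_uniq (p : Lt n h r) {z z' : ℕ} (hz : z < n) (hz' : z' < n)
    (h1 : mM p z) (h2 : mM p z') : z = z' := by
  rcases p with ⟨a, i⟩ | e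
  · rw [mM_inl] at h1 h2; omega
  · have := e.2
    rw [mM_inr] at h1 h2; omega

/-- an `L`-star and an `M`-star share at most one letter. -/
theorem LM_uniq (hh : 32 ≤ h) (hn : 10 * h ≤ n) (hr : r < h + 3) {y z : ℕ} (hy : y < n)
    (hz : z < n) {p q : Lt n h r} (h1 : mL p y) (h2 : mM p z) (h3 : mL q y) (h4 : mM q z) :
    p = q := by
  rcases p with ⟨a, i⟩ | e <;> rcases q with ⟨a', i'⟩ | e'
  · have := i.2
    have := i'.2
    rw [mL_inl] at h1 h3
    rw [mM_inl] at h2 h4
    have e1 : a = a' := Fin.ext (by omega)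
    have e2 : i = i' := Fin.ext (by omega)
    rw [e1, e2]
  · have := i.2
    have := e'.2
    rw [mL_inl] at h1
    rw [mL_inr] at h3
    rw [mM_inl] at h2
    rw [mM_inr] at h4
    exfalso; omega
  · have := i'.2
    have := e.2
    rw [mL_inr] at h1
    rw [mL_inl] at h3
    rw [mM_inr] at h2
    rw [mM_inl] at h4
    exfalso; omega
  · have := e.2
    have := e'.2
    rw [mL_inr] at h1 h3
    rw [mM_inr] at h2 h4
    have : e = e' := Fin.ext (by omega)
    rw [this]

/-- letters with the same stars are equal. -/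
theorem eq_of_same (hh : 32 ≤ h) (hn : 10 * h ≤ n) (hr3 : 3 ≤ r) (hr : r < h + 3)
    {p q : Lt n h r} (hL : ∀ y, y < n → (mL p y ↔ mL q y)) (hM : ∀ z, z < n → (mM p z ↔ mM q z)) :
    p = q := by
  have key : ∀ p q : Lt n h r, (∀ y, y < n → (mL p y ↔ mL q y)) →
      (∀ z, z < n → (mM p z ↔ mM q z)) → (∃ y, y < n ∧ mL p y) → (∃ z, z < n ∧ mM p z) →
      p = q := by
    rintro p q hL hM ⟨y, hy, h1⟩ ⟨z, hz, h2⟩
    exact LM_uniq hh hn hr hy hz h1 h2 ((hL y hy).1 h1) ((hM z hz).1 h2)
  have base : ∀ (a : Fin n) (i : Fin h), (∃ y, y < n ∧ mL (Sum.inl (a, i) : Lt n h r) y) ∧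
      (∃ z, z < n ∧ mM (Sum.inl (a, i) : Lt n h r) z) := by
    intro a i
    have h1 := a.2
    have h2 := i.2
    refine ⟨⟨a, a.2, rfl⟩, ?_⟩
    by_cases hc : (a : ℕ) + i < n
    · exact ⟨a + i, hc, Or.inl rfl⟩
    · exact ⟨a + i - n, by omega, (mM_inl _ _ _).2 (Or.inr (by omega))⟩
  rcases p with ⟨a, i⟩ | e
  · exact key _ _ hL hM (base a i).1 (base a i).2
  rcases q with ⟨a', i'⟩ | e'
  · exact (key _ _ (fun y hy => (hL y hy).symm) (fun z hz => (hM z hz).symm) (base a' i').1
      (base a' i').2).symm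
  have he := e.2
  have he' := e'.2
  have : e = e' := by
    apply Fin.ext
    have l0 := hL 0 (by omega)
    have l1 := hL 1 (by omega)
    have m3 := hM (3 * h) (by omega)
    rw [mL_inr, mL_inr] at l0 l1
    rw [mM_inr, mM_inr] at m3
    by_cases c : 3 ≤ (e : ℕ)
    · have m := hM (e - 3) (by omega)
      rw [mM_inr, mM_inr] at m
      omega
    · by_cases c' : 3 ≤ (e' : ℕ)
      · have m := hM (e' - 3) (by omega)
        rw [mM_inr, mM_inr] at m
        omega
      · omega
  rw [this]

/-- two stars meet. -/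
def Mt (n h r : ℕ) (s t : Fin n ⊕ Fin n) : Prop := ∃ p, p ∈ star n h r s ∧ p ∈ star n h r t

theorem Mt.symm {s t : Fin n ⊕ Fin n} (hm : Mt n h r s t) : Mt n h r t s := by
  obtain ⟨p, h1, h2⟩ := hm
  exact ⟨p, h2, h1⟩

theorem Mt_LL {y y' : Fin n} (hm : Mt n h r (Sum.inl y) (Sum.inl y')) : y = y' := by
  obtain ⟨p, h1, h2⟩ := hm
  rw [mem_L] at h1 h2
  exact Fin.ext (L_uniq p h1 h2)

theorem Mt_MM {z z' : Fin n} (hm : Mt n h r (Sum.inr z) (Sum.inr z')) : z = z' := by
  obtain ⟨p, h1, h2⟩ := hm
  rw [mem_M] at h1 h2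
  exact Fin.ext (M_uniq p z.2 z'.2 h1 h2)

/-- adjacency of `L_y` and `M_z` in natural numbers. -/
def Adj (n h y z : ℕ) : Prop := (y ≤ z ∧ z < y + h) ∨ (z + n < y + h) ∨ (y = 1 ∧ z = 3 * h)

theorem Adj_of_Mt {y z : Fin n} (hm : Mt n h r (Sum.inl y) (Sum.inr z)) : Adj n h y z := by
  obtain ⟨p, h1, h2⟩ := hm
  rw [mem_L] at h1
  rw [mem_M] at h2
  have := y.2
  have := z.2
  unfold Adj
  rcases p with ⟨a, i⟩ | e
  · have := i.2
    rw [mL_inl] at h1
    rw [mM_inl] at h2
    omega
  · rw [mL_inr] at h1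
    rw [mM_inr] at h2
    omega

theorem Mt_of_Adj {y z : Fin n} (hn : h ≤ n) (hr3 : 3 ≤ r) (hm : Adj n h y z) :
    Mt n h r (Sum.inl y) (Sum.inr z) := by
  have hy := y.2
  have hz := z.2
  unfold Adj at hm
  rcases hm with hm | hm | hm
  · refine ⟨Sum.inl (y, ⟨z - y, by omega⟩), (mem_L _ _).2 rfl, (mem_M _ _).2 ?_⟩
    rw [mM_inl]
    left
    show (y : ℕ) + (z - y) = z
    omega
  · refine ⟨Sum.inl (y, ⟨z + n - y, by omega⟩), (mem_L _ _).2 rfl, (mem_M _ _).2 ?_⟩
    rw [mM_inl]
    right
    show (y : ℕ) + (z + n - y) = z + n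
    omega
  · refine ⟨Sum.inr ⟨2, by omega⟩, (mem_L _ _).2 ?_, (mem_M _ _).2 ?_⟩
    · rw [mL_inr]; right; right; exact ⟨rfl, hm.1⟩
    · rw [mM_inr]; left; exact ⟨rfl, hm.2⟩

open Classical in
/-- the stars meeting both `s` and `t`. -/
noncomputable def Com (n h r : ℕ) (s t : Fin n ⊕ Fin n) : Finset (Fin n ⊕ Fin n) :=
  univ.filter fun u => Mt n h r u s ∧ Mt n h r u t

theorem mem_Com {s t u : Fin n ⊕ Fin n} : u ∈ Com n h r s t ↔ Mt n h r u s ∧ Mt n h r u t := by
  simp [Com]

/-- consecutive `L`-stars have many common neighbours. -/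
theorem Com_big (hh : 32 ≤ h) (hn : 10 * h ≤ n) (hr3 : 3 ≤ r) {y y' : Fin n}
    (hy : (y' : ℕ) = y + 1) : h - 1 ≤ (Com n h r (Sum.inl y) (Sum.inl y')).card := by
  have h1 := y.2
  have h2 := y'.2
  let g : Fin (h - 1) → Fin n ⊕ Fin n := fun k => Sum.inr
    (if c : (y : ℕ) + 1 + k < n then ⟨y + 1 + k, c⟩ else ⟨y + 1 + k - n, by omega⟩)
  have hg : ∀ k, g k ∈ Com n h r (Sum.inl y) (Sum.inl y') := by
    intro k
    have hk := k.2
    rw [mem_Com]
    simp only [g]
    split_ifs with c
    · constructor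
      · apply Mt.symm
        apply Mt_of_Adj (by omega) hr3
        unfold Adj
        simp only
        omega
      · apply Mt.symm
        apply Mt_of_Adj (by omega) hr3
        unfold Adj
        simp only
        omega
    · constructor
      · apply Mt.symm
        apply Mt_of_Adj (by omega) hr3
        unfold Adj
        simp only
        omega
      · apply Mt.symm
        apply Mt_of_Adj (by omega) hr3
        unfold Adj
        simp only
        omega
  have hinj : Function.Injective g := by
    intro k k' he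
    have hk := k.2
    have hk' := k'.2
    have he' := Sum.inr_injective he
    have he2 := congrArg Fin.val he'
    apply Fin.ext
    split_ifs at he2 <;> simp only at he2 <;> omega
  calc h - 1 = (univ : Finset (Fin (h - 1))).card := by simp
    _ = ((univ : Finset (Fin (h - 1))).map ⟨g, hinj⟩).card := by rw [card_map]
    _ ≤ _ := by
      apply card_le_card
      intro u hu
      rw [mem_map] at hu
      obtain ⟨k, _, rfl⟩ := hu
      exact hg k

/-- the offset from `y` to `w` on the cycle of length `n`. -/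
def off (n y w : ℕ) : ℕ := if y ≤ w then w - y else w + n - y

theorem off_inj {y w w' : ℕ} (hy : y < n) (hw : w < n) (hw' : w' < n)
    (he : off n y w = off n y w') : w = w' := by
  unfold off at he
  split_ifs at he <;> omega

theorem sub_card {h' : ℕ} {X : Finset (Fin n ⊕ Fin n)} (y : ℕ) (hy : y < n)
    (hX : ∀ u ∈ X, ∃ w : Fin n, u = Sum.inr w ∧ off n y w < h') : X.card ≤ h' := by
  have hX2 : ∀ u ∈ X, ∃ w : Fin n, u = Sum.inr w := fun u hu => by
    obtain ⟨w, hw, _⟩ := hX u hu
    exact ⟨w, hw⟩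
  have : X.card ≤ (range h').card := by
    apply card_le_card_of_injOn (fun u => match u with
      | Sum.inl _ => 0
      | Sum.inr w => off n y w)
    · intro u hu
      obtain ⟨w, rfl, hw⟩ := hX u hu
      simpa using hw
    · intro u hu u' hu' he
      obtain ⟨w, rfl⟩ := hX2 u hu
      obtain ⟨w', rfl⟩ := hX2 u' hu'
      simp only at he
      rw [Fin.ext (off_inj hy w.2 w'.2 he)]
  simpa using this

/-- other pairs have few common neighbours. -/
theorem Com_small (hh : 32 ≤ h) (hn : 10 * h ≤ n) {y : Fin n} {t : Fin n ⊕ Fin n}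
    (ht : ∀ y' : Fin n, t = Sum.inl y' →
      (y' : ℕ) ≠ y ∧ off n y y' ≠ 1 ∧ off n y y' ≠ n - 1) :
    (Com n h r (Sum.inl y) t).card ≤ h - 2 := by
  have hy := y.2
  rcases t with y' | z
  · obtain ⟨t1, t2, t3⟩ := ht y' rfl
    have hy' := y'.2
    have hu : ∀ u ∈ Com n h r (Sum.inl y) (Sum.inl y'), ∃ w : Fin n, u = Sum.inr w ∧
        Adj n h y w ∧ Adj n h y' w := by
      intro u hu
      rw [mem_Com] at hu
      rcases u with v | w
      · exfalso
        have e1 := Mt_LL hu.1
        have e2 := Mt_LL hu.2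
        apply t1
        rw [← e1, ← e2]
      · exact ⟨w, rfl, Adj_of_Mt hu.1.symm, Adj_of_Mt hu.2.symm⟩
    by_cases c1 : off n y y' < h
    · apply sub_card y' y'.2
      intro u hu'
      obtain ⟨w, rfl, w1, w2⟩ := hu u hu'
      refine ⟨w, rfl, ?_⟩
      have hw := w.2
      unfold off at *
      unfold Adj at w1 w2
      split_ifs at * <;> omega
    · by_cases c2 : n - h < off n y y'
      · apply sub_card y y.2
        intro u hu'
        obtain ⟨w, rfl, w1, w2⟩ := hu u hu'
        refine ⟨w, rfl, ?_⟩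
        have hw := w.2
        unfold off at *
        unfold Adj at w1 w2
        split_ifs at * <;> omega
      · apply le_trans (sub_card (3 * h) (by omega) (h' := 1) ?_) (by omega)
        intro u hu'
        obtain ⟨w, rfl, w1, w2⟩ := hu u hu'
        refine ⟨w, rfl, ?_⟩
        have hw := w.2
        unfold off at *
        unfold Adj at w1 w2
        split_ifs at * <;> omega
  · have hs : Com n h r (Sum.inl y) (Sum.inr z) ⊆ {Sum.inl y, Sum.inr z} := by
      intro u hu
      rw [mem_Com] at hu
      rw [mem_insert, mem_singleton]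
      rcases u with v | w
      · left; rw [Mt_LL hu.1]
      · right; rw [Mt_MM hu.2]
    exact le_trans (card_le_card hs) (le_trans (card_le_two) (by omega))

theorem Com_comm (s t : Fin n ⊕ Fin n) : Com n h r s t = Com n h r t s := by
  ext u
  rw [mem_Com, mem_Com, and_comm]

/-- upper bound by an injection to numbers. -/
theorem card_le_of {s : Fin n ⊕ Fin n} (m : ℕ) (φ : Lt n h r → ℕ)
    (h1 : ∀ p ∈ star n h r s, φ p < m)
    (h2 : ∀ p ∈ star n h r s, ∀ q ∈ star n h r s, φ p = φ q → p = q) :
    (star n h r s).card ≤ m := by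
  have : (star n h r s).card ≤ (range m).card := by
    apply card_le_card_of_injOn φ
    · intro p hp
      simpa using h1 p hp
    · intro p hp q hq he
      exact h2 p hp q hq he
  simpa using this

/-- lower bound by an injection from `Fin m`. -/
theorem le_card_of {s : Fin n ⊕ Fin n} (m : ℕ) (g : Fin m → Lt n h r)
    (h1 : ∀ k, g k ∈ star n h r s) (h2 : Function.Injective g) : m ≤ (star n h r s).card := by
  calc m = (univ : Finset (Fin m)).card := by simp
    _ = ((univ : Finset (Fin m)).map ⟨g, h2⟩).card := by rw [card_map]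
    _ ≤ _ := by
      apply card_le_card
      intro u hu
      rw [mem_map] at hu
      obtain ⟨k, _, rfl⟩ := hu
      exact h1 k

/-- the numbering of a star. -/
def num (h x : ℕ) {n r : ℕ} (p : Lt n h r) : ℕ :=
  match p with
  | Sum.inl a => a.2
  | Sum.inr e => if (e : ℕ) = 2 then h + x else h

theorem num_inl (h x : ℕ) {n r : ℕ} (a : Fin n) (i : Fin h) :
    num h x (Sum.inl (a, i) : Lt n h r) = i := rfl

theorem num_inr (h x : ℕ) {n r : ℕ} (e : Fin r) :
    num h x (Sum.inr e : Lt n h r) = if (e : ℕ) = 2 then h + x else h := rfl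

theorem size_all (hh : 32 ≤ h) (hn : 10 * h ≤ n) (hr : r < h + 3) (s : Fin n ⊕ Fin n) :
    (star n h r s).card ≤ h + 2 := by
  apply card_le_of (h + 2) (num h 1)
  · rintro (⟨a, i⟩ | e) hp
    · have := i.2
      rw [num_inl]; omega
    · rw [num_inr]; split_ifs <;> omega
  · intro p hp q hq he
    rcases s with y | z
    · rw [mem_L] at hp hq
      rcases p with ⟨a, i⟩ | e <;> rcases q with ⟨a', i'⟩ | e'
      · have := i.2
        rw [mL_inl] at hp hq
        rw [num_inl, num_inl] at he
        have e1 : a = a' := Fin.ext (by omega)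
        have e2 : i = i' := Fin.ext he
        rw [e1, e2]
      · have := i.2
        rw [num_inl, num_inr] at he
        split_ifs at he <;> omega
      · have := i'.2
        rw [num_inl, num_inr] at he
        split_ifs at he <;> omega
      · rw [mL_inr] at hp hq
        rw [num_inr, num_inr] at he
        have : e = e' := Fin.ext (by split_ifs at he <;> omega)
        rw [this]
    · rw [mem_M] at hp hq
      have := z.2
      rcases p with ⟨a, i⟩ | e <;> rcases q with ⟨a', i'⟩ | e'
      · have := i.2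
        have := a.2
        have := a'.2
        rw [mM_inl] at hp hq
        rw [num_inl, num_inl] at he
        have e1 : a = a' := Fin.ext (by omega)
        have e2 : i = i' := Fin.ext he
        rw [e1, e2]
      · have := i.2
        rw [num_inl, num_inr] at he
        split_ifs at he <;> omega
      · have := i'.2
        rw [num_inl, num_inr] at he
        split_ifs at he <;> omega
      · have := e.2
        have := e'.2
        rw [mM_inr] at hp hq
        rw [num_inr, num_inr] at he
        have : e = e' := Fin.ext (by split_ifs at he <;> omega)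
        rw [this]

theorem size_ne (hh : 32 ≤ h) (hn : 10 * h ≤ n) (hr : r < h + 3) (s : Fin n ⊕ Fin n)
    (hs : ∀ y : Fin n, s = Sum.inl y → (y : ℕ) ≠ 1) : (star n h r s).card ≤ h + 1 := by
  apply card_le_of (h + 1) (num h 0)
  · rintro (⟨a, i⟩ | e) hp
    · have := i.2
      rw [num_inl]; omega
    · rw [num_inr]; split_ifs <;> omega
  · intro p hp q hq he
    rcases s with y | z
    · have hy1 := hs y rfl
      rw [mem_L] at hp hq
      rcases p with ⟨a, i⟩ | e <;> rcases q with ⟨a', i'⟩ | e'
      · have := i.2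
        rw [mL_inl] at hp hq
        rw [num_inl, num_inl] at he
        have e1 : a = a' := Fin.ext (by omega)
        have e2 : i = i' := Fin.ext he
        rw [e1, e2]
      · have := i.2
        rw [num_inl, num_inr] at he
        split_ifs at he <;> omega
      · have := i'.2
        rw [num_inl, num_inr] at he
        split_ifs at he <;> omega
      · rw [mL_inr] at hp hq
        have : e = e' := Fin.ext (by omega)
        rw [this]
    · rw [mem_M] at hp hq
      have := z.2
      rcases p with ⟨a, i⟩ | e <;> rcases q with ⟨a', i'⟩ | e'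
      · have := i.2
        have := a.2
        have := a'.2
        rw [mM_inl] at hp hq
        rw [num_inl, num_inl] at he
        have e1 : a = a' := Fin.ext (by omega)
        have e2 : i = i' := Fin.ext he
        rw [e1, e2]
      · have := i.2
        rw [num_inl, num_inr] at he
        split_ifs at he <;> omega
      · have := i'.2
        rw [num_inl, num_inr] at he
        split_ifs at he <;> omega
      · have := e.2
        have := e'.2
        rw [mM_inr] at hp hq
        have : e = e' := Fin.ext (by omega)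
        rw [this]

theorem size_two (hh : 32 ≤ h) {y : Fin n} (hy : (y : ℕ) = 2) :
    (star n h r (Sum.inl y)).card ≤ h := by
  apply card_le_of h (num h 0)
  · rintro (⟨a, i⟩ | e) hp
    · have := i.2
      rw [num_inl]; omega
    · rw [mem_L, mL_inr] at hp
      exfalso; omega
  · intro p hp q hq he
    rw [mem_L] at hp hq
    rcases p with ⟨a, i⟩ | e
    · rcases q with ⟨a', i'⟩ | e'
      · rw [mL_inl] at hp hq
        rw [num_inl, num_inl] at he
        have e1 : a = a' := Fin.ext (by omega)
        have e2 : i = i' := Fin.ext he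
        rw [e1, e2]
      · rw [mL_inr] at hq
        exfalso; omega
    · rw [mL_inr] at hp
      exfalso; omega

theorem size_zero (hr3 : 3 ≤ r) {y : Fin n} (hy : (y : ℕ) = 0) :
    h + 1 ≤ (star n h r (Sum.inl y)).card := by
  apply le_card_of (h + 1) (fun k : Fin (h + 1) =>
    if c : (k : ℕ) < h then Sum.inl (y, ⟨k, c⟩) else Sum.inr ⟨0, by omega⟩)
  · intro k
    rw [mem_L]
    split_ifs with c
    · rfl
    · rw [mL_inr]; left; exact ⟨rfl, hy⟩
  · intro k k' he
    apply Fin.ext
    have := k.2
    have := k'.2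
    simp only at he
    split_ifs at he with c c' c'
    · have e1 := Sum.inl_injective he
      have e2 := congrArg (fun a => (a.2 : ℕ)) e1
      exact e2
    · omega

theorem size_one (hr3 : 3 ≤ r) {y : Fin n} (hy : (y : ℕ) = 1) :
    h + 2 ≤ (star n h r (Sum.inl y)).card := by
  apply le_card_of (h + 2) (fun k : Fin (h + 2) =>
    if c : (k : ℕ) < h then Sum.inl (y, ⟨k, c⟩) else
      (if (k : ℕ) = h then Sum.inr ⟨1, by omega⟩ else Sum.inr ⟨2, by omega⟩))
  · intro k
    rw [mem_L]
    split_ifs with c c'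
    · rfl
    · rw [mL_inr]; right; left; exact ⟨rfl, hy⟩
    · rw [mL_inr]; right; right; exact ⟨rfl, hy⟩
  · intro k k' he
    apply Fin.ext
    have := k.2
    have := k'.2
    simp only at he
    split_ifs at he
    all_goals first
      | omega
      | (have e1 := Sum.inl_injective he
         have e2 := congrArg (fun a => (a.2 : ℕ)) e1
         exact e2)
      | (have e1 := Sum.inr_injective he
         have e2 := congrArg Fin.val e1
         simp at e2)

theorem star_inj (hh : 32 ≤ h) (hn : 10 * h ≤ n) (hr : r < h + 3) :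
    Function.Injective (star n h r) := by
  have key : ∀ (y z : Fin n), star n h r (Sum.inl y) ≠ star n h r (Sum.inr z) := by
    intro y z he
    have m0 : (Sum.inl (y, ⟨0, by omega⟩) : Lt n h r) ∈ star n h r (Sum.inl y) :=
      (mem_L _ _).2 rfl
    have m1 : (Sum.inl (y, ⟨1, by omega⟩) : Lt n h r) ∈ star n h r (Sum.inl y) :=
      (mem_L _ _).2 rfl
    have m2 := m0
    have m3 := m1
    rw [he, mem_M] at m2 m3
    rw [mem_L] at m0 m1
    have := LM_uniq hh hn hr y.2 z.2 m0 m2 m1 m3
    have e1 := Sum.inl_injective this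
    have e2 := congrArg (fun a => (a.2 : ℕ)) e1
    simp at e2
  rintro (y | z) (y' | z') he
  · have m0 : (Sum.inl (y, ⟨0, by omega⟩) : Lt n h r) ∈ star n h r (Sum.inl y) :=
      (mem_L _ _).2 rfl
    have m1 := m0
    rw [he, mem_L] at m1
    rw [mem_L] at m0
    rw [Fin.ext (L_uniq _ m0 m1)]
  · exact absurd he (key y z')
  · exact absurd he.symm (key y' z)
  · have m0 : (Sum.inl (z, ⟨0, by omega⟩) : Lt n h r) ∈ star n h r (Sum.inr z) :=
      (mem_M _ _).2 (Or.inl rfl)
    have m1 := m0
    rw [he, mem_M] at m1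
    rw [mem_M] at m0
    rw [Fin.ext (M_uniq _ z.2 z'.2 m0 m1)]

/-- **Rigidity.** -/
theorem rigid_core (hh : 32 ≤ h) (hn : 10 * h ≤ n) (hr3 : 3 ≤ r) (hr : r < h + 3)
    (f : Fin n ⊕ Fin n → Fin n ⊕ Fin n) (hf : Function.Injective f)
    (hm : ∀ s t, Mt n h r s t → Mt n h r (f s) (f t))
    (hc : ∀ s, (star n h r (f s)).card = (star n h r s).card) : ∀ s, f s = s := by
  have hcom : ∀ s t, (Com n h r s t).card ≤ (Com n h r (f s) (f t)).card := by
    intro s t
    apply card_le_card_of_injOn f
    · intro u hu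
      rw [mem_coe, mem_Com] at hu ⊢
      exact ⟨hm _ _ hu.1, hm _ _ hu.2⟩
    · exact hf.injOn
  have f1 : f (Sum.inl ⟨1, by omega⟩) = Sum.inl ⟨1, by omega⟩ := by
    by_contra hne
    have h1 := hc (Sum.inl ⟨1, by omega⟩)
    have h2 := size_one (n := n) (h := h) hr3 (y := ⟨1, by omega⟩) rfl
    have h3 := size_ne hh hn hr (f (Sum.inl ⟨1, by omega⟩)) (by
      intro y hy h4
      apply hne
      rw [hy]
      congr 1
      exact Fin.ext h4)
    omega
  have f0 : f (Sum.inl ⟨0, by omega⟩) = Sum.inl ⟨0, by omega⟩ := by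
    have h1 := Com_big hh hn hr3 (y := ⟨0, by omega⟩) (y' := ⟨1, by omega⟩) rfl
    have h2 := hcom (Sum.inl ⟨0, by omega⟩) (Sum.inl ⟨1, by omega⟩)
    rw [f1, Com_comm (f _)] at h2
    by_contra hne
    have h3 := Com_small hh hn (r := r) (y := ⟨1, by omega⟩) (t := f (Sum.inl ⟨0, by omega⟩)) (by
      intro y' hy'
      have hy2 := y'.2
      refine ⟨?_, ?_, ?_⟩
      · intro h4
        have h5 : y' = ⟨1, by omega⟩ := Fin.ext h4
        rw [h5, ← f1] at hy'
        have h6 := Sum.inl_injective (hf hy')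
        have h7 := congrArg Fin.val h6
        simp at h7
      · intro h4
        have h5 : (y' : ℕ) = 2 := by
          unfold off at h4
          simp only at h4
          split_ifs at h4 <;> omega
        have h6 := size_two hh h5 (r := r)
        have h7 := size_zero (n := n) (h := h) hr3 (y := ⟨0, by omega⟩) rfl
        have h8 := hc (Sum.inl ⟨0, by omega⟩)
        rw [hy'] at h8
        omega
      · intro h4
        have h5 : (y' : ℕ) = 0 := by
          unfold off at h4
          simp only at h4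
          split_ifs at h4 <;> omega
        apply hne
        rw [hy']
        congr 1
        exact Fin.ext h5)
    omega
  have hL : ∀ k : ℕ, ∀ hk : k + 1 < n, f (Sum.inl ⟨k, by omega⟩) = Sum.inl ⟨k, by omega⟩ ∧
      f (Sum.inl ⟨k + 1, hk⟩) = Sum.inl ⟨k + 1, hk⟩ := by
    intro k
    induction k with
    | zero => intro hk; exact ⟨f0, f1⟩
    | succ k ih =>
      intro hk
      obtain ⟨i1, i2⟩ := ih (by omega)
      refine ⟨i2, ?_⟩
      have h1 := Com_big hh hn hr3 (y := ⟨k + 1, by omega⟩) (y' := ⟨k + 1 + 1, hk⟩) rfl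
      have h2 := hcom (Sum.inl ⟨k + 1, by omega⟩) (Sum.inl ⟨k + 1 + 1, hk⟩)
      rw [i2] at h2
      by_contra hne
      have h3 := Com_small hh hn (r := r) (y := ⟨k + 1, by omega⟩)
        (t := f (Sum.inl ⟨k + 1 + 1, hk⟩)) (by
        intro y' hy'
        have hy2 := y'.2
        refine ⟨?_, ?_, ?_⟩
        · intro h4
          have h5 : y' = ⟨k + 1, by omega⟩ := Fin.ext h4
          rw [h5, ← i2] at hy'
          have h6 := Sum.inl_injective (hf hy')
          have h7 := congrArg Fin.val h6
          simp at h7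
        · intro h4
          have h5 : (y' : ℕ) = k + 1 + 1 := by
            unfold off at h4
            simp only at h4
            split_ifs at h4 <;> omega
          apply hne
          rw [hy']
          congr 1
          exact Fin.ext h5
        · intro h4
          have h5 : (y' : ℕ) = k := by
            unfold off at h4
            simp only at h4
            split_ifs at h4 <;> omega
          have h5' : y' = ⟨k, by omega⟩ := Fin.ext h5
          rw [h5', ← i1] at hy'
          have h6 := Sum.inl_injective (hf hy')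
          have h7 := congrArg Fin.val h6
          simp only at h7
          omega)
      omega
  have hL' : ∀ y : Fin n, f (Sum.inl y) = Sum.inl y := by
    intro y
    have hy := y.2
    by_cases c : (y : ℕ) + 1 < n
    · exact (hL y c).1
    · have h1 := (hL (y - 1) (by omega)).2
      have h2 : (⟨(y : ℕ) - 1 + 1, by omega⟩ : Fin n) = y := Fin.ext (by simp only; omega)
      rw [h2] at h1
      exact h1
  rintro (y | z)
  · exact hL' y
  · have hz := z.2
    obtain ⟨z', hz'⟩ : ∃ z' : Fin n, (z' : ℕ) + h = z + 1 ∨ (z' : ℕ) + h = z + 1 + n := by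
      by_cases c : h ≤ (z : ℕ) + 1
      · exact ⟨⟨z + 1 - h, by omega⟩, Or.inl (by simp only; omega)⟩
      · exact ⟨⟨z + 1 + n - h, by omega⟩, Or.inr (by simp only; omega)⟩
    have hz2 := z'.2
    have m1 : Mt n h r (Sum.inl z) (Sum.inr z) := Mt_of_Adj (by omega) hr3 (by
      unfold Adj; omega)
    have m2 : Mt n h r (Sum.inl z') (Sum.inr z) := Mt_of_Adj (by omega) hr3 (by
      unfold Adj; omega)
    have m3 := hm _ _ m1
    have m4 := hm _ _ m2
    rw [hL'] at m3 m4
    rcases hu : f (Sum.inr z) with w | w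
    · rw [hu] at m3 m4
      have e1 := Mt_LL m3
      have e2 := Mt_LL m4
      exfalso
      rw [← e2] at e1
      rw [e1] at hz'
      omega
    · rw [hu] at m3 m4
      have e1 := Adj_of_Mt m3
      have e2 := Adj_of_Mt m4
      have hw := w.2
      congr 1
      apply Fin.ext
      unfold Adj at e1 e2
      omega

/-- only the identity permutes the stars. -/
theorem rigid (hh : 32 ≤ h) (hn : 10 * h ≤ n) (hr3 : 3 ≤ r) (hr : r < h + 3)
    (ρ : Equiv.Perm (Lt n h r))
    (hρ : ∀ i, ∃ j, (star n h r i).image ρ = star n h r j) : ρ = 1 := by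
  choose f hf using hρ
  have hinj : Function.Injective f := by
    intro i j hij
    have h1 : (star n h r i).image ρ = (star n h r j).image ρ := by
      rw [hf, hf, hij]
    exact star_inj hh hn hr (image_injective ρ.injective h1)
  have hmem : ∀ i p, p ∈ star n h r i → ρ p ∈ star n h r (f i) := by
    intro i p hp
    rw [← hf]
    exact mem_image_of_mem _ hp
  have hfix := rigid_core hh hn hr3 hr f hinj (by
    rintro s t ⟨p, h1, h2⟩
    exact ⟨ρ p, hmem _ _ h1, hmem _ _ h2⟩) (by
    intro s
    rw [← hf, card_image_of_injective _ ρ.injective])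
  have hiff : ∀ i p, p ∈ star n h r i ↔ ρ p ∈ star n h r i := by
    intro i p
    constructor
    · intro hp
      have := hmem i p hp
      rwa [hfix] at this
    · intro hp
      have h1 := hf i
      rw [hfix] at h1
      rw [← h1, mem_image] at hp
      obtain ⟨q, hq, he⟩ := hp
      rwa [← ρ.injective he]
  ext1 p
  rw [Equiv.Perm.one_apply]
  symm
  apply eq_of_same hh hn hr3 hr
  · intro y hy
    have := hiff (Sum.inl ⟨y, hy⟩) p
    rwa [mem_L, mem_L] at this
  · intro z hz
    have := hiff (Sum.inr ⟨z, hz⟩) p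
    rwa [mem_M, mem_M] at this

end

/-- **[S5-STR]**: star systems exist. -/
theorem strStmt : StrStmt := by
  intro g n b hg hn hb1 hb2
  obtain ⟨h, hh0⟩ : ∃ h, h = 2 ^ g := ⟨_, rfl⟩
  have hh : 32 ≤ h := by
    rw [hh0]
    calc 32 = 2 ^ 5 := by norm_num
      _ ≤ 2 ^ g := Nat.pow_le_pow_right (by norm_num) hg
  obtain ⟨r, hr0⟩ : ∃ r, b = n * h + r := ⟨b - n * h, by rw [hh0]; omega⟩
  have hn' : 10 * h ≤ n := by rw [hh0]; exact hn
  have hr3 : 3 ≤ r := by rw [← hh0] at hb1; omega
  have hr : r < h + 3 := by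
    rw [← hh0] at hb2
    have : (n + 1) * h = n * h + h := by ring
    omega
  have hcard : Fintype.card (Lt n h r) = b := by
    simp [Lt, hr0]
  let e : Lt n h r ≃ Fin b := Fintype.equivFinOfCardEq hcard
  have hcol : Fintype.card (Fin h) = Fintype.card (Fin g → Bool) := by
    simp [hh0]
  let E : Fin h ≃ (Fin g → Bool) := Fintype.equivOfCardEq hcol
  have h0 : 0 < h := by omega
  let c0 : Lt n h r → (Fin g → Bool) := fun p => match p with
    | Sum.inl a => E a.2
    | Sum.inr _ => E ⟨0, h0⟩
  have hmap : ∀ i p, p ∈ (star n h r i).map e.toEmbedding ↔ e.symm p ∈ star n h r i := by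
    intro i p
    rw [mem_map_equiv]
  refine ⟨{
    col := fun p => c0 (e.symm p)
    st := fun i => (star n h r i).map e.toEmbedding
    disjL := ?_
    disjM := ?_
    inter := ?_
    colour := ?_
    size := ?_
    rigid := ?_ }⟩
  · intro y y' hne
    rw [Finset.disjoint_left]
    intro p hp hp'
    rw [hmap, mem_L] at hp hp'
    exact hne (Fin.ext (L_uniq _ hp hp'))
  · intro z z' hne
    rw [Finset.disjoint_left]
    intro p hp hp'
    rw [hmap, mem_M] at hp hp'
    exact hne (Fin.ext (M_uniq _ z.2 z'.2 hp hp'))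
  · intro y z
    rw [card_le_one]
    intro p hp q hq
    rw [mem_inter, hmap, hmap, mem_L, mem_M] at hp hq
    exact e.symm.injective (LM_uniq hh hn' hr y.2 z.2 hp.1 hp.2 hq.1 hq.2)
  · intro i κ
    obtain ⟨k, hk⟩ : ∃ k, k = E.symm κ := ⟨_, rfl⟩
    have hk2 := k.2
    rcases i with y | z
    · refine ⟨e (Sum.inl (y, k)), ?_, ?_⟩
      · rw [hmap, e.symm_apply_apply, mem_L]
        rfl
      · rw [e.symm_apply_apply]
        show E k = κ
        rw [hk, E.apply_symm_apply]
    · have hz := z.2
      obtain ⟨y, hy⟩ : ∃ y : Fin n, (y : ℕ) + k = z ∨ (y : ℕ) + k = z + n := by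
        by_cases c : (k : ℕ) ≤ z
        · exact ⟨⟨z - k, by omega⟩, Or.inl (by simp only; omega)⟩
        · exact ⟨⟨z + n - k, by omega⟩, Or.inr (by simp only; omega)⟩
      refine ⟨e (Sum.inl (y, k)), ?_, ?_⟩
      · rw [hmap, e.symm_apply_apply, mem_M]
        exact hy
      · rw [e.symm_apply_apply]
        show E k = κ
        rw [hk, E.apply_symm_apply]
  · intro i
    rw [card_map, ← hh0]
    exact size_all hh hn' hr i
  · intro ρ hρ
    have h1 : (e.trans (ρ.trans e.symm) : Equiv.Perm (Lt n h r)) = 1 := by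
      apply rigid hh hn' hr3 hr
      intro i
      obtain ⟨j, hj⟩ := hρ i
      refine ⟨j, ?_⟩
      ext p
      have h2 := Finset.ext_iff.1 hj (e p)
      rw [hmap, e.symm_apply_apply] at h2
      rw [← h2, mem_image, mem_image]
      constructor
      · rintro ⟨q, hq, hqp⟩
        refine ⟨e q, ?_, ?_⟩
        · rw [hmap, e.symm_apply_apply]; exact hq
        · rw [← hqp]
          simp
      · rintro ⟨q, hq, hqp⟩
        rw [hmap] at hq
        refine ⟨e.symm q, hq, ?_⟩
        simp [hqp]
    ext1 p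
    have h2 := Equiv.ext_iff.1 h1 (e.symm p)
    simp only [Equiv.trans_apply, Equiv.apply_symm_apply, Equiv.Perm.one_apply] at h2
    exact e.symm.injective h2

end Vale.Agent.P181.H188
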