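import Vale.Agent.P181.H188.Num10
import Vale.Agent.P181.H59.All10g
import Vale.Agent.P181.H59.Des6All
import Vale.Agent.P181.H59.Dual
import Vale.Agent.P181.H463.Big
import Vale.Agent.P181.T7.Cells

/-!
# P181, S10: the final theorem for all `b ≥ a`, unconditional, and the tail theorem
-/

set_option autoImplicit false

namespace Vale.Agent.P181.H188

open Vale.Agent.P181 Vale.Agent.P181.H280 Vale.Agent.P181.T7 Vale.Agent.P181.S10

/-- **The general theorem for all `b ≥ a` and all `n`**. -/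
theorem main10g_all : Main10gAll :=
  H59.all10g (num10g H59.Des6All.des_all H261.mat_stmt H59.mat_dual) H463.big_stmt

/-- Many boxes below row `L` are many boxes in the first `b` columns. -/
theorem cond_of_tail {b n L : ℕ} {B y : ℝ} (hb : 0 ≤ y) (lam : Fin n → ℕ) (hlam : Antitone lam)
    (h1 : B ≤ L * (y * b)) (h2 : B ≤ y * cells L lam) :
    B ≤ y * ∑ i, ((min b (lam i) : ℕ) : ℝ) := by
  by_cases hc : ∃ i : Fin n, L ≤ (i : ℕ) ∧ b ≤ lam i
  · obtain ⟨i, hi, hbi⟩ := hc
    refine h1.trans ?_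
    have h3 : (L * b : ℕ) ≤ ∑ i, min b (lam i) := by
      calc L * b = ∑ _j ∈ Finset.univ.filter (fun j : Fin n => (j : ℕ) < L), b := by
            rw [Finset.sum_const, smul_eq_mul, Fin.card_filter_val_lt,
              min_eq_right (hi.trans i.2.le)]
        _ ≤ ∑ j ∈ Finset.univ.filter (fun j : Fin n => (j : ℕ) < L), min b (lam j) := by
            apply Finset.sum_le_sum
            intro j hj
            rw [Finset.mem_filter] at hj
            exact le_min le_rfl (hbi.trans (hlam (show j ≤ i from (hj.2.trans_le hi).le)))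
        _ ≤ ∑ j, min b (lam j) :=
            Finset.sum_le_sum_of_subset (Finset.filter_subset _ _)
    have h4 : ((L : ℝ) * b) ≤ ∑ i, ((min b (lam i) : ℕ) : ℝ) := by exact_mod_cast h3
    calc (L : ℝ) * (y * b) = y * (L * b) := by ring
      _ ≤ _ := mul_le_mul_of_nonneg_left h4 hb
  · push Not at hc
    refine h2.trans (mul_le_mul_of_nonneg_left ?_ hb)
    have h3 : cells L lam ≤ ∑ i, min b (lam i) := by
      unfold cells
      apply Finset.sum_le_sum
      intro i _
      split_ifs with hi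
      · exact le_min (hc i hi).le le_rfl
      · exact Nat.zero_le _
    exact_mod_cast h3

/-- **The tail theorem for all `b ≥ a` and all `n`**: the rows below row `L` contain at least
`b² a ^ ε / (b - a)` cells, `L ≥ b a ^ ε / (b - a)`. -/
theorem tail10_all (ε : ℝ) (hε : 0 < ε) : ∃ a₀ : ℕ, ∀ a : ℕ, a₀ ≤ a →
    ∀ (b n L : ℕ) (lam : Fin n → ℕ), a ≤ b → (b : ℝ) * (a : ℝ) ^ ε ≤ L * ((b : ℝ) - a) →
    (b : ℝ) ^ 2 * (a : ℝ) ^ ε ≤ ((b : ℝ) - a) * cells L lam →
    plethMult a b n lam ≤ plethMult b a n lam := by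
  obtain ⟨a₀, h⟩ := main10g_all ε hε
  refine ⟨max a₀ 1, fun a ha b n L lam hab h1 h2 => ?_⟩
  by_cases h0 : plethMult a b n lam = 0
  · rw [h0]
    exact Nat.zero_le _
  · obtain ⟨hanti, -, -⟩ := H530.zero_stmt a b n lam h0
    have ha1 : (1 : ℝ) ≤ a := by exact_mod_cast (le_max_right _ _).trans ha
    have habR : (a : ℝ) ≤ b := by exact_mod_cast hab
    have hb0 : (0 : ℝ) < b := by linarith
    refine h a ((le_max_left _ _).trans ha) b n lam hab ?_
    refine cond_of_tail (L := L) (by linarith) lam hanti ?_ h2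
    calc (b : ℝ) ^ 2 * (a : ℝ) ^ ε = b * (b * (a : ℝ) ^ ε) := by ring
      _ ≤ b * (L * ((b : ℝ) - a)) := mul_le_mul_of_nonneg_left h1 hb0.le
      _ = _ := by ring

end Vale.Agent.P181.H188
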