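import Vale.Agent.P181.S10.Spec
import Vale.Agent.P181.H914.Num6

set_option autoImplicit false

/-!
P181, S10: the marker columns (short columns, or long columns through their complements) and the
numbers: `DesAll → MatStmt → MatDual → Main10g`.
-/

open Finset

namespace Vale.Agent.P181.H188

open Vale.Agent.P181 Vale.Agent.P181.H280 Vale.Agent.P181.FR Vale.Agent.P181.H188W
open Vale.Agent.P181.T4 Vale.Agent.P181.H463 Vale.Agent.P181.H59 Vale.Agent.P181.H914

/-- **S10, comparison**: the markers cost `a ^ (2 m)` each, the first `l` rows are long. -/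
theorem compare10 {a b m l N s n0 : ℕ} {lam : Fin a → ℕ} (hlam : Antitone lam)
    (ha : 0 < a) (hab : a ≤ b) (hla : l ≤ a) (hlen : ∀ c : Fin N, a.choose (cj lam (s + c)) ≤ a ^ (2 * m))
    (hrow : ∀ i : Fin a, (i : ℕ) < l → n0 ≤ et6 lam s N i)
    (hnum : (a : ℝ) ^ (2 * m * N) *
      ((((∑ i, et6 lam s N i) + b - 1).choose (b - 1) * b.factorial : ℕ) : ℝ) ≤
      (1 + (n0 : ℝ) / b) ^ (l * (b - a)))
    (hC : gt a b (et6 lam s N) ≤ ((∑ i, et6 lam s N i) + b - 1).choose (b - 1) *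
      (b.factorial * plethMult b a a lam)) :
    plethMult a b a lam ≤ plethMult b a a lam := by
  classical
  have hη := et6_anti hlam s N
  have h1 := plethMult_le_pow (a := a) (b := b) (c := a) (R := 0) (m := a) (Nat.zero_add a) lam
    (∑ i, lam i) (fun i hi => absurd hi (Nat.not_lt_zero _))
  have h2 : (fun i : Fin a => lam ⟨0 + i, by have := i.isLt; omega⟩) = lam := by
    funext i
    exact congrArg lam (Fin.ext (Nat.zero_add _))
  rw [h2, Nat.zero_mul, pow_zero, one_mul] at h1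
  have h3 := Vale.Agent.P181.H539.finrank_HW_le_gt a a hlam
  have h4 := Vale.Agent.P181.H921.gt_addcols_le (n := a) a (univ : Finset (Fin N))
    (fun c => cj lam (s + c)) (fun c _ => cj_le lam _) hη
  have h5 : (fun i : Fin a => et6 lam s N i +
      ((univ : Finset (Fin N)).filter fun c : Fin N =>
        (i : ℕ) < cj lam (s + (c : ℕ))).card) = lam := by
    funext i
    simp only [lt_cj hlam]
    have := card_win6 (lam i) s N
    simp only [et6]
    omega
  rw [h5] at h4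
  have h6 : (∏ c : Fin N, a.choose (cj lam (s + c))) ≤ a ^ (2 * m * N) := by
    refine (Finset.prod_le_pow_card _ _ _ fun c _ => hlen c).trans ?_
    rw [card_univ, Fintype.card_fin, ← pow_mul]
  have h7 := Vale.Agent.P181.H539.gt_growth_rows (n := a) (a := a) (N := b) (l := l) (n0 := n0)
    le_rfl ha hab hη hla hrow
  set G : ℝ := (gt a a (et6 lam s N) : ℝ) with hG
  set G' : ℝ := (gt a b (et6 lam s N) : ℝ) with hG'
  set X : ℝ := (1 + (n0 : ℝ) / b) ^ (l * (b - a)) with hX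
  set P : ℝ := (plethMult b a a lam : ℝ) with hP
  set Cc : ℝ :=
    ((((∑ i, et6 lam s N i) + b - 1).choose (b - 1) * b.factorial : ℕ) : ℝ) with hCc
  have h8 : (plethMult a b a lam : ℝ) ≤ (a : ℝ) ^ (2 * m * N) * G := by
    rw [hG]
    exact_mod_cast ((h1.trans h3).trans h4).trans (Nat.mul_le_mul_right _ h6)
  have h9 : G' ≤ Cc * P := by
    rw [hG', hCc, hP]
    rw [← Nat.mul_assoc] at hC
    exact_mod_cast hC
  have hX0 : 0 < X := by positivity
  have hP0 : 0 ≤ P := Nat.cast_nonneg _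
  have hL0 : (0 : ℝ) ≤ (a : ℝ) ^ (2 * m * N) := by positivity
  have h10 : (plethMult a b a lam : ℝ) * X ≤ P * X := by
    calc (plethMult a b a lam : ℝ) * X
        ≤ ((a : ℝ) ^ (2 * m * N) * G) * X := mul_le_mul_of_nonneg_right h8 hX0.le
      _ = (a : ℝ) ^ (2 * m * N) * (G * X) := by ring
      _ ≤ (a : ℝ) ^ (2 * m * N) * G' := mul_le_mul_of_nonneg_left h7 hL0
      _ ≤ (a : ℝ) ^ (2 * m * N) * (Cc * P) := mul_le_mul_of_nonneg_left h9 hL0
      _ = ((a : ℝ) ^ (2 * m * N) * Cc) * P := by ring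
      _ ≤ X * P := mul_le_mul_of_nonneg_right hnum hP0
      _ = P * X := mul_comm _ _
  have h11 : (plethMult a b a lam : ℝ) ≤ (plethMult b a a lam : ℝ) :=
    le_of_mul_le_mul_right h10 hX0
  exact_mod_cast h11

/-- **The final numerical inequality**. -/
theorem fin10 {a b m l N n0 s : ℕ} (hab : a + 1 ≤ b) (hs : s ≤ a * b) (hn0 : n0 ≤ b)
    (h : ((2 * m * N + 3 * b : ℕ) : ℝ) * Real.log b ≤
      l * ((b : ℝ) - a) * ((n0 : ℝ) / b / 2)) :
    (a : ℝ) ^ (2 * m * N) * (((s + b - 1).choose (b - 1) * b.factorial : ℕ) : ℝ) ≤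
      (1 + (n0 : ℝ) / b) ^ (l * (b - a)) := by
  have hb : 0 < b := by omega
  have hbR : (0 : ℝ) < b := by exact_mod_cast hb
  -- the left side
  have h1 : (s + b - 1).choose (b - 1) ≤ (b ^ 2) ^ b := by
    calc (s + b - 1).choose (b - 1) ≤ (s + b - 1) ^ (b - 1) := Nat.choose_le_pow _ _
      _ ≤ (b ^ 2) ^ (b - 1) := by
          refine Nat.pow_le_pow_left ?_ _
          have h2 : a * b + b ≤ b ^ 2 := by nlinarith
          omega
      _ ≤ (b ^ 2) ^ b := Nat.pow_le_pow_right (by positivity) (by omega)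
  have h2 : b.factorial ≤ b ^ b := Nat.factorial_le_pow b
  have h3 : (((s + b - 1).choose (b - 1) * b.factorial : ℕ) : ℝ) ≤ (b : ℝ) ^ (3 * b) := by
    have h4 : (s + b - 1).choose (b - 1) * b.factorial ≤ b ^ (3 * b) := by
      calc (s + b - 1).choose (b - 1) * b.factorial ≤ (b ^ 2) ^ b * b ^ b := Nat.mul_le_mul h1 h2
        _ = b ^ (3 * b) := by rw [← pow_mul, ← pow_add]; congr 1; ring
    exact_mod_cast h4
  have h4 : (a : ℝ) ^ (2 * m * N) ≤ (b : ℝ) ^ (2 * m * N) := by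
    refine pow_le_pow_left₀ (Nat.cast_nonneg _) ?_ _
    exact_mod_cast (by omega : a ≤ b)
  have h5 : (a : ℝ) ^ (2 * m * N) * (((s + b - 1).choose (b - 1) * b.factorial : ℕ) : ℝ) ≤
      Real.exp (((2 * m * N + 3 * b : ℕ) : ℝ) * Real.log b) := by
    calc (a : ℝ) ^ (2 * m * N) * (((s + b - 1).choose (b - 1) * b.factorial : ℕ) : ℝ)
        ≤ (b : ℝ) ^ (2 * m * N) * (b : ℝ) ^ (3 * b) :=
          mul_le_mul h4 h3 (Nat.cast_nonneg _) (by positivity)
      _ = (b : ℝ) ^ (2 * m * N + 3 * b) := (pow_add _ _ _).symm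
      _ = Real.exp (((2 * m * N + 3 * b : ℕ) : ℝ) * Real.log b) := by
          rw [Real.exp_nat_mul, Real.exp_log hbR]
  refine h5.trans ?_
  -- the right side
  set x : ℝ := (n0 : ℝ) / b with hx
  have hx1 : x ≤ 1 := by
    rw [hx, div_le_one hbR]
    exact_mod_cast hn0
  have hx0 : 0 ≤ x := by positivity
  have h6 : x / 2 ≤ Real.log (1 + x) := by
    have h7 := Real.one_sub_inv_le_log_of_pos (by linarith : (0 : ℝ) < 1 + x)
    have h8 : x / 2 ≤ 1 - (1 + x)⁻¹ := by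
      have h9 : 1 - (1 + x)⁻¹ = x / (1 + x) := by
        field_simp
        ring
      rw [h9]
      exact div_le_div_of_nonneg_left hx0 (by linarith) (by linarith)
    linarith
  have h7 : (1 + x) ^ (l * (b - a)) = Real.exp (((l * (b - a) : ℕ) : ℝ) * Real.log (1 + x)) := by
    rw [Real.exp_nat_mul, Real.exp_log (by linarith : (0 : ℝ) < 1 + x)]
  rw [h7]
  apply Real.exp_le_exp.2
  have h8 : ((l * (b - a) : ℕ) : ℝ) = l * ((b : ℝ) - a) := by
    rw [Nat.cast_mul, Nat.cast_sub (by omega)]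
  rw [h8]
  have hba : 0 ≤ (b : ℝ) - a := by
    have : (a : ℝ) ≤ b := by exact_mod_cast (by omega : a ≤ b)
    linarith
  refine h.trans ?_
  exact mul_le_mul_of_nonneg_left h6 (by positivity)

/-- **Pigeonhole.** -/
lemma pigeon (G : ℕ → ℕ) {L n : ℕ} (h0 : G 0 = 0) (hL : n ≤ G L) (hn : 0 < n) :
    ∃ i < L, G i ≤ G (i + 1) ∧ n ≤ L * (G (i + 1) - G i) := by
  by_contra hcon
  push Not at hcon
  have key : ∀ j ≤ L, L * G j ≤ j * (n - 1) := by
    intro j
    induction j with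
    | zero => intro _; simp [h0]
    | succ j ih =>
      intro hj
      have h2 := ih (by omega)
      rcases le_or_gt (G j) (G (j + 1)) with h | h
      · have h3 := hcon j (by omega) h
        have h4 : G (j + 1) = G j + (G (j + 1) - G j) := by omega
        rw [h4, Nat.mul_add, Nat.add_mul, Nat.one_mul]
        omega
      · have h4 : L * G (j + 1) ≤ L * G j := Nat.mul_le_mul_left _ h.le
        rw [Nat.add_mul, Nat.one_mul]
        omega
  have h2 := key L le_rfl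
  have h3 : L * n ≤ L * (n - 1) := (Nat.mul_le_mul_left _ hL).trans h2
  rcases Nat.eq_zero_or_pos L with h | h
  · subst h
    omega
  · have := Nat.le_of_mul_le_mul_left h3 h
    omega

/-- the number of dyadic classes -/
lemma dyadic {b : ℕ} (hb : 0 < b) (hlog1 : 1 ≤ Real.log b) :
    ∃ L : ℕ, 0 < L ∧ b < 2 ^ L ∧ (L : ℝ) ≤ 3 * Real.log b := by
  refine ⟨Nat.log 2 b + 1, Nat.succ_pos _, Nat.lt_pow_succ_log_self (by norm_num) b, ?_⟩
  have h1 : 2 ^ Nat.log 2 b ≤ b := Nat.pow_log_le_self 2 (by omega)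
  have h2 : ((2 : ℝ)) ^ Nat.log 2 b ≤ b := by exact_mod_cast h1
  have h3 := Real.log_le_log (by positivity) h2
  rw [Real.log_pow] at h3
  have h4 : (0.6931471803 : ℝ) < Real.log 2 := Real.log_two_gt_d9
  push_cast
  have h5 : ((Nat.log 2 b : ℕ) : ℝ) * 0.6931471803 ≤ (Nat.log 2 b : ℕ) * Real.log 2 :=
    mul_le_mul_of_nonneg_left h4.le (Nat.cast_nonneg _)
  linarith

lemma lt_ex_iff {a : ℕ} {lam : Fin a → ℕ} (hlam : Antitone lam) (j x : ℕ) :
    j < ex lam x ↔ x < cj lam j := by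
  by_cases h : x < a
  · rw [T4.ex_of_lt lam h]
    exact (lt_cj hlam ⟨x, h⟩ j).symm
  · rw [ex_of_ge lam (not_lt.1 h)]
    have := cj_le lam j
    omega

/-- **The end of both cases.** -/
theorem finish10 {a b l m N s W C : ℕ} {g z : ℝ} {lam : Fin a → ℕ} (hlam : Antitone lam)
    (hsum : ∑ i, lam i = a * b) (ha : 0 < a) (hab : a + 1 ≤ b) (hg : g = Real.log b)
    (hg1 : 1 ≤ g) (hz : 64 * g ^ (C + 1) ≤ z) (hla : l ≤ a) (hWb : W ≤ b)
    (hrow : ∀ i : Fin a, (i : ℕ) < l → W ≤ lam i)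
    (hmain : (b : ℝ) ^ 2 * z ≤ l * ((b : ℝ) - a) * W)
    (hmN : (m : ℝ) * N ≤ 2 * b * g ^ C) (hNW : 2 * N ≤ W)
    (hlen : ∀ c : Fin N, a.choose (cj lam (s + c)) ≤ a ^ (2 * m))
    (hC : gt a b (et6 lam s N) ≤ ((∑ i, et6 lam s N i) + b - 1).choose (b - 1) *
      (b.factorial * plethMult b a a lam)) :
    plethMult a b a lam ≤ plethMult b a a lam := by
  have hsle : ∑ i, et6 lam s N i ≤ a * b := by
    rw [← hsum]
    refine Finset.sum_le_sum fun i _ => ?_
    have := card_win6 (lam i) s N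
    simp only [et6]
    omega
  have hbR : (0 : ℝ) < b := by
    have : 0 < b := by omega
    exact_mod_cast this
  have hba : 0 < (b : ℝ) - a := by
    have : (a : ℝ) < b := by exact_mod_cast (by omega : a < b)
    linarith
  refine compare10 (n0 := W - N) hlam ha (by omega) hla hlen (fun i hi => ?_)
    (fin10 hab hsle (by omega) ?_) hC
  · have := hrow i hi
    simp only [et6]
    omega
  · rw [← hg]
    have hgC : 1 ≤ g ^ C := one_le_pow₀ hg1
    have h1 : ((2 * m * N + 3 * b : ℕ) : ℝ) ≤ 7 * b * g ^ C := by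
      push_cast
      have h2 : (b : ℝ) * 1 ≤ b * g ^ C := mul_le_mul_of_nonneg_left hgC hbR.le
      linarith
    have h2 : (W : ℝ) ≤ 2 * ((W - N : ℕ) : ℝ) := by
      exact_mod_cast (by omega : W ≤ 2 * (W - N))
    have hg0 : (0 : ℝ) ≤ g := by linarith
    have hp : 0 ≤ g ^ (C + 1) := by positivity
    calc ((2 * m * N + 3 * b : ℕ) : ℝ) * g ≤ 7 * b * g ^ C * g :=
          mul_le_mul_of_nonneg_right h1 hg0
      _ = 7 * g ^ (C + 1) * b := by rw [pow_succ]; ring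
      _ ≤ z / 4 * b := by
          refine mul_le_mul_of_nonneg_right ?_ hbR.le
          linarith
      _ = (b : ℝ) ^ 2 * z / (4 * b) := by
          field_simp
      _ ≤ l * ((b : ℝ) - a) * W / (4 * b) := by gcongr
      _ ≤ l * ((b : ℝ) - a) * (2 * ((W - N : ℕ) : ℝ)) / (4 * b) := by gcongr
      _ = l * ((b : ℝ) - a) * (((W - N : ℕ) : ℝ) / b / 2) := by
          field_simp
          ring

/-- the consequences of the main hypothesis -/
lemma basics {a b l W : ℕ} {z : ℝ} (hab : a + 1 ≤ b) (hla : l ≤ a) (hWb : W ≤ b)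
    (hmain : (b : ℝ) ^ 2 * z ≤ l * ((b : ℝ) - a) * W) :
    z ≤ l ∧ z ≤ ((b - a : ℕ) : ℝ) ∧ (b : ℝ) * z ≤ l * W ∧ (b : ℝ) * z ≤ ((b - a : ℕ) : ℝ) * W := by
  have hbR : (0 : ℝ) < b := by
    have : 0 < b := by omega
    exact_mod_cast this
  have he : ((b - a : ℕ) : ℝ) = (b : ℝ) - a := Nat.cast_sub (by omega)
  have haR : (0 : ℝ) ≤ a := Nat.cast_nonneg _
  have hba : 0 < (b : ℝ) - a := by
    have : (a : ℝ) < b := by exact_mod_cast (by omega : a < b)
    linarith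
  have hlb : (l : ℝ) ≤ b := by exact_mod_cast (by omega : l ≤ b)
  have hWR : (W : ℝ) ≤ b := by exact_mod_cast hWb
  have hl0 : (0 : ℝ) ≤ l := Nat.cast_nonneg _
  have hW0 : (0 : ℝ) ≤ W := Nat.cast_nonneg _
  rw [he]
  have h1 : (b : ℝ) * z ≤ l * ((b : ℝ) - a) := by
    have h2 : (b : ℝ) * (b * z) ≤ b * (l * ((b : ℝ) - a)) := by
      calc (b : ℝ) * (b * z) = (b : ℝ) ^ 2 * z := by ring
        _ ≤ l * ((b : ℝ) - a) * W := hmain
        _ ≤ l * ((b : ℝ) - a) * b := by gcongr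
        _ = _ := by ring
    exact le_of_mul_le_mul_left h2 hbR
  refine ⟨?_, ?_, ?_, ?_⟩
  · refine le_of_mul_le_mul_left (h1.trans ?_) hbR
    calc (l : ℝ) * ((b : ℝ) - a) ≤ l * b := by gcongr; linarith
      _ = b * l := mul_comm _ _
  · refine le_of_mul_le_mul_left (h1.trans ?_) hbR
    gcongr
  · have h2 : (b : ℝ) * (b * z) ≤ b * (l * W) := by
      calc (b : ℝ) * (b * z) = (b : ℝ) ^ 2 * z := by ring
        _ ≤ l * ((b : ℝ) - a) * W := hmain
        _ ≤ l * b * W := by gcongr; linarith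
        _ = _ := by ring
    exact le_of_mul_le_mul_left h2 hbR
  · have h2 : (b : ℝ) * (b * z) ≤ b * (((b : ℝ) - a) * W) := by
      calc (b : ℝ) * (b * z) = (b : ℝ) ^ 2 * z := by ring
        _ ≤ l * ((b : ℝ) - a) * W := hmain
        _ ≤ b * ((b : ℝ) - a) * W := by gcongr
        _ = _ := by ring
    exact le_of_mul_le_mul_left h2 hbR

/-- the number of markers -/
lemma markers {b m C : ℕ} {g : ℝ} (hm : 1 ≤ m) (hmb : m ≤ b) (hg1 : 1 ≤ g) :
    ∃ N : ℕ, ((b : ℝ) / m) * g ^ C ≤ N ∧ (m : ℝ) * N ≤ 2 * b * g ^ C := by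
  have hmR : (0 : ℝ) < m := by exact_mod_cast hm
  have hgC : 1 ≤ g ^ C := one_le_pow₀ hg1
  refine ⟨⌈((b : ℝ) / m) * g ^ C⌉₊, Nat.le_ceil _, ?_⟩
  have hbm1 : 1 ≤ (b : ℝ) / m := by
    rw [one_le_div hmR]
    exact_mod_cast hmb
  have hNle : ((⌈((b : ℝ) / m) * g ^ C⌉₊ : ℕ) : ℝ) ≤ 2 * (((b : ℝ) / m) * g ^ C) := by
    have h1 := Nat.ceil_lt_add_one (by positivity : 0 ≤ ((b : ℝ) / m) * g ^ C)
    have h2 : 1 * 1 ≤ ((b : ℝ) / m) * g ^ C := mul_le_mul hbm1 hgC zero_le_one (by linarith)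
    linarith
  calc (m : ℝ) * ((⌈((b : ℝ) / m) * g ^ C⌉₊ : ℕ) : ℝ) ≤ m * (2 * (((b : ℝ) / m) * g ^ C)) :=
        mul_le_mul_of_nonneg_left hNle hmR.le
    _ = 2 * b * g ^ C := by
      field_simp

/-- the markers fit into a class -/
lemma fits {b m N W D L C x : ℕ} {g z : ℝ} (hg1 : 1 ≤ g) (hL : (L : ℝ) ≤ 3 * g)
    (hz : 64 * g ^ (C + 1) ≤ z) (hm : 1 ≤ m) (hbW : (b : ℝ) * z ≤ m * W)
    (hmN : (m : ℝ) * N ≤ 2 * b * g ^ C) (hWx : W ≤ 2 * x) (hx : x ≤ L * D) : 2 * N ≤ D := by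
  have hmR : (0 : ℝ) < m := by exact_mod_cast hm
  have hg0 : 0 < g := by linarith
  have hbR : (0 : ℝ) ≤ b := Nat.cast_nonneg _
  have hp : 0 ≤ g ^ (C + 1) := by positivity
  have h1 : (m : ℝ) * (12 * g * N) ≤ m * W := by
    calc (m : ℝ) * (12 * g * N) = 12 * g * (m * N) := by ring
      _ ≤ 12 * g * (2 * b * g ^ C) := mul_le_mul_of_nonneg_left hmN (by positivity)
      _ = b * (24 * g ^ (C + 1)) := by rw [pow_succ]; ring
      _ ≤ b * z := by
          refine mul_le_mul_of_nonneg_left ?_ hbR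
          linarith
      _ ≤ m * W := hbW
  have h2 : 12 * g * N ≤ (W : ℝ) := le_of_mul_le_mul_left h1 hmR
  have h3 : (W : ℝ) ≤ 2 * (L * D) := by exact_mod_cast (by omega : W ≤ 2 * (L * D))
  have h4 : 2 * ((L : ℝ) * D) ≤ 2 * (3 * g * D) := by gcongr
  have h5 : (6 * g) * (2 * (N : ℝ)) ≤ (6 * g) * D := by linarith
  have h6 := le_of_mul_le_mul_left h5 (by positivity)
  exact_mod_cast h6

/-- **Case A: short columns.** -/
theorem caseA (hM : MatStmt) {a b l W C : ℕ} {g z : ℝ} {lam : Fin a → ℕ} (hlam : Antitone lam)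
    (hsum : ∑ i, lam i = a * b) (ha : 0 < a) (hab : a + 1 ≤ b) (hg : g = Real.log b)
    (hg1 : 1 ≤ g) (hz : 64 * g ^ (C + 1) ≤ z) (hl1 : 1 ≤ l) (hla : l ≤ a) (hWb : W ≤ b)
    (hrow : ∀ i : Fin a, (i : ℕ) < l → W ≤ lam i)
    (hmain : (b : ℝ) ^ 2 * z ≤ l * ((b : ℝ) - a) * W)
    (hdes : ∀ m N : ℕ, z ≤ m → m ≤ b / 2 → ((b : ℝ) / m) * g ^ C ≤ N →
      ∀ len : Fin N → ℕ, (∀ c, m ≤ len c ∧ len c ≤ 2 * m ∧ len c ≤ b / 2) →
      ∃ R : ℕ, R ≤ m ∧ Design b R N len)
    (hA : 2 * ex lam (b / 2) < W) :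
    plethMult a b a lam ≤ plethMult b a a lam := by
  obtain ⟨hzl, hze, hblW, hbeW⟩ := basics hab hla hWb hmain
  obtain ⟨L, hL0, hbL, hL⟩ := dyadic (b := b) (by omega) (hg ▸ hg1)
  rw [← hg] at hL
  obtain ⟨nh, hnh⟩ : ∃ nh, nh = ex lam (b / 2) := ⟨_, rfl⟩
  rw [← hnh] at hA
  obtain ⟨K, hK⟩ : ∃ K : ℕ → ℕ, K = fun i => max (min W (ex lam (l * 2 ^ i - 1))) nh := ⟨_, rfl⟩
  have hKW : ∀ i, K i ≤ W := by
    intro i
    rw [hK]
    simp only
    omega
  have hK0 : K 0 = W := by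
    have h1 : W ≤ ex lam (l * 2 ^ 0 - 1) := by
      rw [pow_zero, Nat.mul_one, T4.ex_of_lt lam (by omega : l - 1 < a)]
      exact hrow _ (by show l - 1 < l; omega)
    rw [hK]
    simp only
    omega
  have hKL : K L = nh := by
    have h1 : ex lam (l * 2 ^ L - 1) ≤ nh := by
      by_contra hcon
      push Not at hcon
      rw [lt_ex_iff hlam] at hcon
      have h2 : 1 * 2 ^ L ≤ l * 2 ^ L := Nat.mul_le_mul_right _ hl1
      have h3 : b / 2 < cj lam nh := by omega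
      rw [← lt_ex_iff hlam, ← hnh] at h3
      omega
    rw [hK]
    simp only
    omega
  obtain ⟨i, hiL, hi1, hi2⟩ := pigeon (fun i => W - K i) (L := L) (n := W - nh)
    (by simp only [hK0]; omega) (by simp only [hKL]; omega) (by omega)
  obtain ⟨D, hD⟩ : ∃ D, D = W - K (i + 1) - (W - K i) := ⟨_, rfl⟩
  rw [← hD] at hi2
  have hKi := hKW i
  have hKi1 := hKW (i + 1)
  have hD0 : 0 < D := by
    rcases Nat.eq_zero_or_pos D with h | h
    · rw [h, Nat.mul_zero] at hi2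
      omega
    · exact h
  obtain ⟨m, hm⟩ : ∃ m, m = l * 2 ^ i := ⟨_, rfl⟩
  have hlm : l ≤ m := by
    rw [hm]
    exact Nat.le_mul_of_pos_right _ (by positivity)
  have hm2 : l * 2 ^ (i + 1) = 2 * m := by
    rw [hm, pow_succ]
    ring
  have hclass : ∀ j, K (i + 1) ≤ j → j < K i →
      m ≤ cj lam j ∧ cj lam j ≤ 2 * m ∧ cj lam j ≤ b / 2 := by
    intro j h1 h2
    rw [hK] at h1 h2
    simp only at h1 h2
    rw [hm2] at h1
    rw [← hm] at h2
    have h3 : j < ex lam (m - 1) := by omega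
    have h4 : ex lam (2 * m - 1) ≤ j := by omega
    have h5 : nh ≤ j := by omega
    have h6 := (lt_ex_iff hlam j (m - 1)).1 h3
    have h7 := cj_le lam j
    obtain ⟨h8, h9⟩ := class_len hlam (by omega) (by omega) h4 h3
    refine ⟨h8, h9, ?_⟩
    by_contra hcon
    push Not at hcon
    rw [← lt_ex_iff hlam, ← hnh] at hcon
    omega
  have hmh : m ≤ b / 2 := by
    have := hclass (K (i + 1)) le_rfl (by omega)
    omega
  obtain ⟨N, hNge, hmN⟩ := markers (b := b) (m := m) (C := C) (g := g) (by omega) (by omega) hg1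
  have hbmW : (b : ℝ) * z ≤ m * W := by
    refine hblW.trans ?_
    have : (l : ℝ) ≤ m := by exact_mod_cast hlm
    gcongr
  have hND : 2 * N ≤ D := fits hg1 hL hz (by omega) hbmW hmN (by omega : W ≤ 2 * (W - nh)) hi2
  have hcls : ∀ c : Fin N, m ≤ cj lam (K (i + 1) + c) ∧ cj lam (K (i + 1) + c) ≤ 2 * m ∧
      cj lam (K (i + 1) + c) ≤ b / 2 := by
    intro c
    have := c.2
    exact hclass _ (by omega) (by omega)
  have hzm : z ≤ m := by
    refine hzl.trans ?_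
    exact_mod_cast hlm
  obtain ⟨R, hRm, hd⟩ := hdes m N hzm hmh hNge (fun c => cj lam (K (i + 1) + c)) hcls
  have hmat := hM a b R N (fun c => cj lam (K (i + 1) + c)) lam (et6 lam (K (i + 1)) N)
    (by omega) hd
    (fun c => ⟨hRm.trans (hcls c).1, cj_le lam _⟩) (et6_anti hlam _ N) (by
      intro i'
      simp only [lt_cj hlam]
      exact card_win6 (lam i') _ N) hsum
  refine finish10 hlam hsum ha hab hg hg1 hz hla hWb hrow hmain hmN (by omega) (fun c => ?_) hmat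
  exact (Nat.choose_le_pow _ _).trans (Nat.pow_le_pow_right ha (hcls c).2.1)

/-- **Case B: long columns.** -/
theorem caseB (hM : Vale.Agent.P181.S10.MatDual) {a b l W C : ℕ} {g z : ℝ} {lam : Fin a → ℕ}
    (hlam : Antitone lam)
    (hsum : ∑ i, lam i = a * b) (ha : 0 < a) (hab : a + 1 ≤ b) (hg : g = Real.log b)
    (hg1 : 1 ≤ g) (hz : 64 * g ^ (C + 1) ≤ z) (hla : l ≤ a) (hWb : W ≤ b)
    (hrow : ∀ i : Fin a, (i : ℕ) < l → W ≤ lam i)
    (hmain : (b : ℝ) ^ 2 * z ≤ l * ((b : ℝ) - a) * W)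
    (hdes : ∀ m N : ℕ, z ≤ m → m ≤ b / 2 → ((b : ℝ) / m) * g ^ C ≤ N →
      ∀ len : Fin N → ℕ, (∀ c, m ≤ len c ∧ len c ≤ 2 * m ∧ len c ≤ b / 2) →
      ∃ R : ℕ, R ≤ m ∧ Design b R N len)
    (hW0 : 0 < W) (hB : W ≤ 2 * ex lam (b / 2)) :
    plethMult a b a lam ≤ plethMult b a a lam := by
  obtain ⟨hzl, hze, hblW, hbeW⟩ := basics hab hla hWb hmain
  obtain ⟨L, hL0, hbL, hL⟩ := dyadic (b := b) (by omega) (hg ▸ hg1)
  rw [← hg] at hL
  obtain ⟨nh, hnh⟩ : ∃ nh, nh = ex lam (b / 2) := ⟨_, rfl⟩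
  rw [← hnh] at hB
  obtain ⟨e, he⟩ : ∃ e, e = b - a := ⟨_, rfl⟩
  rw [← he] at hze hbeW
  have he1 : 1 ≤ e := by omega
  obtain ⟨K, hK⟩ : ∃ K : ℕ → ℕ,
    K = fun i => min (min W nh) (ex lam (max (b - e * 2 ^ i) (b / 2))) := ⟨_, rfl⟩
  have hKW : ∀ i, K i ≤ min W nh := by
    intro i
    rw [hK]
    simp only
    omega
  have hK0 : K 0 = 0 := by
    have h1 : ex lam (max (b - e * 2 ^ 0) (b / 2)) = 0 := by
      refine ex_of_ge lam ?_
      rw [pow_zero, Nat.mul_one]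
      omega
    rw [hK]
    simp only
    omega
  have hKL : min W nh ≤ K L := by
    have h2 : 1 * 2 ^ L ≤ e * 2 ^ L := Nat.mul_le_mul_right _ he1
    have h1 : max (b - e * 2 ^ L) (b / 2) = b / 2 := by omega
    rw [hK]
    simp only
    rw [h1, ← hnh]
    omega
  obtain ⟨i, hiL, hi1, hi2⟩ := pigeon K (L := L) (n := min W nh) hK0 hKL (by omega)
  obtain ⟨D, hD⟩ : ∃ D, D = K (i + 1) - K i := ⟨_, rfl⟩
  rw [← hD] at hi2
  have hKi := hKW i
  have hKi1 := hKW (i + 1)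
  have hD0 : 0 < D := by
    rcases Nat.eq_zero_or_pos D with h | h
    · rw [h, Nat.mul_zero] at hi2
      omega
    · exact h
  obtain ⟨m, hm⟩ : ∃ m, m = e * 2 ^ i := ⟨_, rfl⟩
  have hem : e ≤ m := by
    rw [hm]
    exact Nat.le_mul_of_pos_right _ (by positivity)
  have hm2 : e * 2 ^ (i + 1) = 2 * m := by
    rw [hm, pow_succ]
    ring
  have hclass : ∀ j, K i ≤ j → j < K (i + 1) →
      m ≤ b - cj lam j ∧ b - cj lam j ≤ 2 * m ∧ b - cj lam j ≤ b / 2 := by
    intro j h1 h2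
    rw [hK] at h1 h2
    simp only at h1 h2
    rw [hm2] at h2
    rw [← hm] at h1
    have h3 : j < ex lam (max (b - 2 * m) (b / 2)) := by omega
    have h4 : ¬ j < ex lam (max (b - m) (b / 2)) := by omega
    rw [lt_ex_iff hlam] at h3 h4
    have h7 := cj_le lam j
    omega
  have hmh : m ≤ b / 2 := by
    have := hclass (K i) le_rfl (by omega)
    omega
  obtain ⟨N, hNge, hmN⟩ := markers (b := b) (m := m) (C := C) (g := g) (by omega) (by omega) hg1
  have hbmW : (b : ℝ) * z ≤ m * W := by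
    refine hbeW.trans ?_
    have : (e : ℝ) ≤ m := by exact_mod_cast hem
    gcongr
  have hND : 2 * N ≤ D := fits hg1 hL hz (by omega) hbmW hmN (by omega : W ≤ 2 * (min W nh)) hi2
  have hcls : ∀ c : Fin N, m ≤ b - cj lam (K i + c) ∧ b - cj lam (K i + c) ≤ 2 * m ∧
      b - cj lam (K i + c) ≤ b / 2 := by
    intro c
    have := c.2
    exact hclass _ (by omega) (by omega)
  have hzm : z ≤ m := by
    refine hze.trans ?_
    exact_mod_cast hem
  obtain ⟨R, hRm, hd⟩ := hdes m N hzm hmh hNge (fun c => b - cj lam (K i + c)) hcls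
  have hmat := hM a b R N (fun c => cj lam (K i + c)) lam (et6 lam (K i) N)
    (by omega) hd
    (fun c => ⟨cj_le lam _, by
      have h1 := (hcls c).1
      have h2 := cj_le lam (K i + c)
      omega⟩) (et6_anti hlam _ N) (by
      intro i'
      simp only [lt_cj hlam]
      exact card_win6 (lam i') _ N) hsum
  refine finish10 hlam hsum ha hab hg hg1 hz hla hWb hrow hmain hmN (by omega) (fun c => ?_) hmat
  have h2 := cj_le lam (K i + c)
  have h3 := (hcls c).2.1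
  rw [← Nat.choose_symm h2]
  exact (Nat.choose_le_pow _ _).trans (Nat.pow_le_pow_right ha (by omega))

/-- **S10 for one pair and one shape.** -/
theorem core10 (hM : MatStmt) (hM' : Vale.Agent.P181.S10.MatDual) {a b C : ℕ} {z : ℝ}
    (hab : a ≤ b) (hlog1 : 1 ≤ Real.log b) (hz : 64 * Real.log b ^ (C + 1) ≤ z)
    (hdes : ∀ m N : ℕ, z ≤ m → m ≤ b / 2 → ((b : ℝ) / m) * Real.log b ^ C ≤ N →
      ∀ len : Fin N → ℕ, (∀ c, m ≤ len c ∧ len c ≤ 2 * m ∧ len c ≤ b / 2) →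
      ∃ R : ℕ, R ≤ m ∧ Design b R N len)
    {lam : Fin a → ℕ} (hlam : Antitone lam) (hsum : ∑ i, lam i = a * b) (i : Fin a)
    (hmain : (b : ℝ) ^ 2 * z ≤ ((i : ℕ) + 1) * ((b : ℝ) - a) * min (b : ℝ) (lam i)) :
    plethMult a b a lam ≤ plethMult b a a lam := by
  have ha : 0 < a := Nat.lt_of_le_of_lt (Nat.zero_le _) i.2
  have hb : 0 < b := by omega
  have hbR : (0 : ℝ) < b := by exact_mod_cast hb
  have hp : 1 ≤ Real.log b ^ (C + 1) := one_le_pow₀ hlog1
  have hz0 : 0 < z := by linarith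
  obtain ⟨W, hW⟩ : ∃ W : ℕ, W = min b (lam i) := ⟨_, rfl⟩
  have hWR : min (b : ℝ) (lam i) = W := by
    rw [hW, Nat.cast_min]
  rw [hWR] at hmain
  have hpos : 0 < (b : ℝ) ^ 2 * z := by positivity
  have hab' : a + 1 ≤ b := by
    rcases Nat.lt_or_ge a b with h | h
    · exact h
    · have h1 : (b : ℝ) - a = 0 := by
        have : (b : ℝ) = a := by exact_mod_cast le_antisymm h hab
        linarith
      rw [h1, mul_zero, zero_mul] at hmain
      linarith
  have hW0 : 0 < W := by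
    rcases Nat.eq_zero_or_pos W with h | h
    · rw [h, Nat.cast_zero, mul_zero] at hmain
      linarith
    · exact h
  have hrow : ∀ i' : Fin a, (i' : ℕ) < (i : ℕ) + 1 → W ≤ lam i' := by
    intro i' h
    have h1 : lam i ≤ lam i' := hlam (by
      rw [Fin.le_def]
      omega)
    omega
  have hmain' : (b : ℝ) ^ 2 * z ≤ (((i : ℕ) + 1 : ℕ) : ℝ) * ((b : ℝ) - a) * W := by
    push_cast
    exact hmain
  rcases Nat.lt_or_ge (2 * ex lam (b / 2)) W with h | h
  · exact caseA hM hlam hsum ha hab' rfl hlog1 hz (Nat.succ_pos _) i.2 (by omega) hrow hmain'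
      hdes h
  · exact caseB hM' hlam hsum ha hab' rfl hlog1 hz i.2 (by omega) hrow hmain' hdes hW0 h

/-- **[S10-NUMg]** -/
theorem num10g : Vale.Agent.P181.S10.Num10g := by
  intro hD hM hM' ε hε
  obtain ⟨C, b0, hb0⟩ := hD (ε / 2) 1 (by positivity) one_pos
  obtain ⟨b1, hb1⟩ := Filter.eventually_atTop.1 (ev6 (ε / 2) 64 C (by positivity))
  filter_upwards [Filter.eventually_ge_atTop b0, Filter.eventually_ge_atTop b1,
    Filter.eventually_ge_atTop 1] with a ha0 ha1 ha b hab hba2 lam hlam hsum i hmain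
  have haR : (1 : ℝ) ≤ a := by exact_mod_cast ha
  have hbR : (0 : ℝ) ≤ b := Nat.cast_nonneg _
  obtain ⟨hlog1, hlogy⟩ := hb1 b (by omega)
  have hyz : (b : ℝ) ^ (ε / 2) ≤ (a : ℝ) ^ ε := by
    have h1 : (b : ℝ) ≤ (a : ℝ) ^ (2 : ℕ) := by exact_mod_cast hba2
    calc (b : ℝ) ^ (ε / 2) ≤ ((a : ℝ) ^ (2 : ℕ)) ^ (ε / 2) :=
          Real.rpow_le_rpow hbR h1 (by positivity)
      _ = (a : ℝ) ^ ε := by
          rw [← Real.rpow_natCast, ← Real.rpow_mul (by linarith)]
          congr 1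
          push_cast
          ring
  refine core10 hM hM' hab hlog1 (hlogy.trans hyz) (fun m N h1 h2 h3 len h4 => ?_) hlam hsum i
    hmain
  refine hb0 b (b / 2) m N (by omega) ?_ (hyz.trans h1) h2 h3 len h4
  have : ((b / 2 : ℕ) : ℝ) ≤ (b : ℝ) / 2 := Nat.cast_div_le
  linarith

end Vale.Agent.P181.H188
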